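import Vale.Agent.P181.H382.Defs

set_option autoImplicit false

/-!
# P181, LL, (L5): the lower bound from (L1)-(L4)
-/

namespace Vale.Agent.P181.H382.H648

open Vale.Agent.P181.H280 (plethMult)
open Vale.Agent.P181.TL (KK)

theorem sum_div (N h : ℕ) (hh : 1 ≤ h) : ∑ x ∈ Finset.range h, (N + x) / h = N := by
  induction N with
  | zero =>
    apply Finset.sum_eq_zero
    intro x hx
    rw [zero_add]
    exact Nat.div_eq_of_lt (Finset.mem_range.1 hx)
  | succ N ih =>
    have h1 := Finset.sum_range_succ (fun x => (N + x) / h) h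
    have h2 := Finset.sum_range_succ' (fun x => (N + x) / h) h
    rw [h1, ih] at h2
    have h3 : (N + h) / h = N / h + 1 := Nat.add_div_right N (by omega)
    rw [h3] at h2
    have h4 : ∑ x ∈ Finset.range h, (N + 1 + x) / h = ∑ x ∈ Finset.range h, (N + (x + 1)) / h :=
      Finset.sum_congr rfl fun x _ => by rw [show N + 1 + x = N + (x + 1) by ring]
    rw [h4]
    rw [add_zero] at h2
    omega

theorem div_le (N h R x : ℕ) (hh : 1 ≤ h) (hN : N ≤ h * R) (hx : x < h) : (N + x) / h ≤ R := by
  have h1 : N + x < h * (R + 1) := by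
    have : h * (R + 1) = h * R + h := by ring
    omega
  have := (Nat.div_lt_iff_lt_mul (show 0 < h by omega)).2 (by rw [mul_comm]; exact h1)
  omega

/-- a sum is at most the number of the summands times one of them -/
theorem exists_le_sum (J : ℕ) (F : ℕ → ℕ) : ∃ i ≤ J, ∑ j ∈ Finset.range (J + 1), F j ≤ (J + 1) * F i := by
  obtain ⟨i, hi, hm⟩ := Finset.exists_max_image (Finset.range (J + 1)) F ⟨0, by simp⟩
  refine ⟨i, by rw [Finset.mem_range] at hi; omega, ?_⟩
  calc ∑ j ∈ Finset.range (J + 1), F j ≤ ∑ _j ∈ Finset.range (J + 1), F i :=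
        Finset.sum_le_sum fun j hj => hm j hj
    _ = (J + 1) * F i := by simp

/-- **(L5)** -/
theorem lowM (h1 : LowN) (h2 : PigN) (h3 : KeyN) (h4 : FlatN) : LowM := by
  intro k a e n m X h R tau f ha hm hX hh han hf hfs hwin hF ht0 he
  obtain ⟨t, ht⟩ : ∃ t, t = ∑ i, tau i := ⟨_, rfl⟩
  rw [← ht] at hf hfs hwin hF he
  have hn : 0 < n := by omega
  obtain ⟨KS, k1, k2, k3, k4⟩ := h3 n m X t (t / a) hn hm hX hwin hF
  -- the lift
  have hlow := h1 k e (t / a + n / m + 1) (Fin n) (Fin 2 × Fin h) (fun p => p.1)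
    (fun i => (i : ℕ) / m) (fun p => (tau 0 + (p.2 : ℕ)) / h) tau KS
    (by
      intro l
      rw [Fintype.sum_prod_type, Finset.sum_eq_single l]
      · simp only [if_true]
        rw [Fin.sum_univ_eq_sum_range (fun x => (tau 0 + x) / h) h]
        exact sum_div (tau 0) h hh
      · intro l' _ hl'
        exact Finset.sum_eq_zero fun x _ => if_neg hl'
      · intro hcon
        exact absurd (Finset.mem_univ l) hcon)
    (fun c hc => by rw [k1 c hc, ht])
    (fun c hc j => by
      have e1 := k2 c hc j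
      have e2 : (j : ℕ) / m ≤ n / m := Nat.div_le_div_right j.2.le
      show c j + (j : ℕ) / m < t / a + n / m + 1
      omega)
    (fun p => by
      have e1 := div_le (tau 0) h R p.2 hh ht0 p.2.2
      show t / a + n / m + 1 + (tau 0 + (p.2 : ℕ)) / h < e
      omega)
    (by omega)
    (fun c hc c' hc' j j' hs hj => k3 c hc c' hc' j j' hs hj)
  -- the flattening
  have hflat : KS.card * Module.finrank ℂ (KK (k + 1) (Fin a) f tau) ≤
      ∑ c ∈ KS, Module.finrank ℂ (KK (k + 1) (Fin n) c tau) := by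
    rw [← smul_eq_mul, ← Finset.sum_const]
    apply Finset.sum_le_sum
    intro c hc
    exact h4 (k + 1) a n (t / a) tau f c han hf (k2 c hc) (hfs.trans ht) ((k1 c hc).trans ht)
  -- the pigeonhole
  obtain ⟨J, hJ⟩ : ∃ J, J = ∑ j : Fin n, (j : ℕ) / m + ∑ p : Fin 2 × Fin h,
      (if p.1 = 0 then t / a + n / m + 1 else e - (tau 0 + (p.2 : ℕ)) / h) + tau 0 := ⟨_, rfl⟩
  have hJle : J ≤ n * (n / m) + 2 * e * h + tau 0 := by
    have e1 : ∑ j : Fin n, (j : ℕ) / m ≤ n * (n / m) := by
      calc ∑ j : Fin n, (j : ℕ) / m ≤ ∑ _j : Fin n, n / m :=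
            Finset.sum_le_sum fun j _ => Nat.div_le_div_right j.2.le
        _ = n * (n / m) := by simp
    have e2 : ∑ p : Fin 2 × Fin h,
        (if p.1 = 0 then t / a + n / m + 1 else e - (tau 0 + (p.2 : ℕ)) / h) ≤ 2 * e * h := by
      calc ∑ p : Fin 2 × Fin h,
            (if p.1 = 0 then t / a + n / m + 1 else e - (tau 0 + (p.2 : ℕ)) / h) ≤
            ∑ _p : Fin 2 × Fin h, e := by
              apply Finset.sum_le_sum
              intro p _
              split_ifs
              · omega
              · exact Nat.sub_le _ _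
        _ = 2 * e * h := by
              rw [Finset.sum_const, smul_eq_mul, Finset.card_univ, Fintype.card_prod,
                Fintype.card_fin, Fintype.card_fin]
              ring
    omega
  have hcard : Fintype.card (Fin n ⊕ (Fin 2 × Fin h)) = n + 2 * h := by
    rw [Fintype.card_sum, Fintype.card_prod, Fintype.card_fin, Fintype.card_fin, Fintype.card_fin]
  have hpig := h2 k e J (Fin n ⊕ (Fin 2 × Fin h)) tau
  rw [hcard] at hpig
  have hlow' : ∑ c ∈ KS, Module.finrank ℂ (KK (k + 1) (Fin n) c tau) ≤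
      Module.finrank ℂ (NN (k + 3) (Fin n ⊕ (Fin 2 × Fin h)) e (wj (e * (n + 2 * h)) J tau)) := by
    rw [Fintype.card_prod, Fintype.card_fin, Fintype.card_fin, Fintype.card_fin] at hlow
    rw [hJ]
    exact hlow
  obtain ⟨i, hi, hmax⟩ := exists_le_sum J
    (fun i => plethMult (n + 2 * h) e (k + 3) (wj (e * (n + 2 * h)) i tau))
  refine ⟨i, hi.trans hJle, ?_⟩
  have hfin : KS.card * Module.finrank ℂ (KK (k + 1) (Fin a) f tau) ≤
      (J + 1) * plethMult (n + 2 * h) e (k + 3) (wj (e * (n + 2 * h)) i tau) :=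
    hflat.trans (hlow'.trans (hpig.trans hmax))
  calc X ^ n * Module.finrank ℂ (KK (k + 1) (Fin a) f tau)
      ≤ ((n * X + 1) * KS.card) * Module.finrank ℂ (KK (k + 1) (Fin a) f tau) :=
        Nat.mul_le_mul_right _ k4
    _ = (n * X + 1) * (KS.card * Module.finrank ℂ (KK (k + 1) (Fin a) f tau)) := by ring
    _ ≤ (n * X + 1) * ((J + 1) *
          plethMult (n + 2 * h) e (k + 3) (wj (e * (n + 2 * h)) i tau)) :=
        Nat.mul_le_mul_left _ hfin
    _ ≤ (n * X + 1) * ((n * (n / m) + 2 * e * h + tau 0 + 1) *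
          plethMult (n + 2 * h) e (k + 3) (wj (e * (n + 2 * h)) i tau)) := by
        apply Nat.mul_le_mul_left
        apply Nat.mul_le_mul_right
        omega

end Vale.Agent.P181.H382.H648
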